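import Vale.Agent.Lib.P052.Gram

/-!
# Borsuk partitions of sets of at most `d + 4` points in `ℝ^d` (P052)
-/

open Finset

namespace Vale.Agent.Lib.P052

/-- Among any `d+2` points of `ℝ^d` with mutual distances at most `δ > 0`, some point is at
distance `< δ` from two other points. -/
lemma exists_two_close (d : ℕ) (W : Finset (EuclideanSpace ℝ (Fin d))) (hW : W.card = d + 2)
    (δ : ℝ) (hδ : 0 < δ) (h1 : ∀ p ∈ W, ∀ q ∈ W, dist p q ≤ δ) :
    ∃ w ∈ W, ∃ p ∈ W, ∃ q ∈ W, p ≠ q ∧ p ≠ w ∧ q ≠ w ∧ dist w p < δ ∧ dist w q < δ := by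
  by_contra hcon
  have hind : AffineIndependent ℝ (fun i : ↥W => (i : EuclideanSpace ℝ (Fin d))) := by
    apply affineIndependent_of_gap_sum_lt _ δ
    · intro i j
      exact h1 i i.2 j j.2
    · intro i
      by_cases hex : ∃ j : ↥W, j ≠ i ∧
          dist (i : EuclideanSpace ℝ (Fin d)) (j : EuclideanSpace ℝ (Fin d)) < δ
      · obtain ⟨j0, hj0, hd0⟩ := hex
        rw [Finset.sum_eq_single j0]
        · rw [if_neg hj0]
          have hpos : 0 < dist (i : EuclideanSpace ℝ (Fin d)) (j0 : EuclideanSpace ℝ (Fin d)) :=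
            dist_pos.mpr (fun h => hj0 (Subtype.ext h.symm))
          nlinarith [hpos]
        · intro j _ hj
          by_cases hji : j = i
          · rw [if_pos hji]
          · rw [if_neg hji]
            have hge : δ ≤ dist (i : EuclideanSpace ℝ (Fin d)) (j : EuclideanSpace ℝ (Fin d)) := by
              by_contra hlt
              exact hcon ⟨i, i.2, j0, j0.2, j, j.2, fun h => hj (Subtype.ext h.symm),
                fun h => hj0 (Subtype.ext h), fun h => hji (Subtype.ext h), hd0, not_le.mp hlt⟩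
            have hle := h1 i i.2 j j.2
            rw [le_antisymm hle hge]
            ring
        · intro h
          exact absurd (mem_univ j0) h
      · have hall : ∀ j : ↥W, (if j = i then 0 else δ^2
            - dist (i : EuclideanSpace ℝ (Fin d)) (j : EuclideanSpace ℝ (Fin d))^2) = 0 := by
          intro j
          by_cases hji : j = i
          · rw [if_pos hji]
          · rw [if_neg hji]
            have hge : δ ≤ dist (i : EuclideanSpace ℝ (Fin d)) (j : EuclideanSpace ℝ (Fin d)) := by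
              by_contra hlt
              exact hex ⟨j, hji, not_le.mp hlt⟩
            have hle := h1 i i.2 j j.2
            rw [le_antisymm hle hge]
            ring
        simp_rw [hall]
        simp only [sum_const_zero]
        positivity
  have hcard := hind.card_le_finrank_succ
  have h2 : Module.finrank ℝ (vectorSpan ℝ
      (Set.range fun i : ↥W => (i : EuclideanSpace ℝ (Fin d)))) ≤ d := by
    calc Module.finrank ℝ (vectorSpan ℝ
          (Set.range fun i : ↥W => (i : EuclideanSpace ℝ (Fin d))))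
        ≤ Module.finrank ℝ (EuclideanSpace ℝ (Fin d)) := Submodule.finrank_le _
      _ = d := by simp
  rw [Fintype.card_coe, hW] at hcard
  omega

/-- A colouring with `d + 1` colours from a merging map. -/
lemma coloring_of_merge (d : ℕ) (X : Finset (EuclideanSpace ℝ (Fin d))) (δ : ℝ)
    (T : Finset (EuclideanSpace ℝ (Fin d)))
    (s : EuclideanSpace ℝ (Fin d) → EuclideanSpace ℝ (Fin d))
    (hT : T ⊆ X) (hcard : X.card ≤ T.card + (d + 1))
    (hs : ∀ t ∈ T, s t ∈ X ∧ s t ∉ T ∧ dist t (s t) < δ)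
    (hst : ∀ t ∈ T, ∀ t' ∈ T, t ≠ t' → s t = s t' → dist t t' < δ) :
    ∃ f : EuclideanSpace ℝ (Fin d) → Fin (d + 1),
      ∀ p ∈ X, ∀ q ∈ X, p ≠ q → f p = f q → dist p q < δ := by
  classical
  have hc : Fintype.card ↥(X \ T) ≤ Fintype.card (Fin (d + 1)) := by
    rw [Fintype.card_coe, Fintype.card_fin, card_sdiff_of_subset hT]
    omega
  obtain ⟨e⟩ := Function.Embedding.nonempty_of_card_le hc
  let ρ : EuclideanSpace ℝ (Fin d) → EuclideanSpace ℝ (Fin d) := fun p => if p ∈ T then s p else p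
  have hρ : ∀ p ∈ X, ρ p ∈ X \ T := by
    intro p hp
    by_cases hpT : p ∈ T
    · have := hs p hpT
      simp only [ρ, if_pos hpT, mem_sdiff]
      exact ⟨this.1, this.2.1⟩
    · simp only [ρ, if_neg hpT, mem_sdiff]
      exact ⟨hp, hpT⟩
  refine ⟨fun p => if h : ρ p ∈ X \ T then e ⟨ρ p, h⟩ else 0, ?_⟩
  intro p hp q hq hpq hf
  simp only [dif_pos (hρ p hp), dif_pos (hρ q hq)] at hf
  have hρeq : ρ p = ρ q := by
    have := e.injective hf
    exact congrArg Subtype.val this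
  by_cases hpT : p ∈ T <;> by_cases hqT : q ∈ T
  · simp only [ρ, if_pos hpT, if_pos hqT] at hρeq
    exact hst p hpT q hqT hpq hρeq
  · simp only [ρ, if_pos hpT, if_neg hqT] at hρeq
    rw [← hρeq]
    exact (hs p hpT).2.2
  · simp only [ρ, if_neg hpT, if_pos hqT] at hρeq
    rw [hρeq, dist_comm]
    exact (hs q hqT).2.2
  · simp only [ρ, if_neg hpT, if_neg hqT] at hρeq
    exact absurd hρeq hpq

/-- Three merges give a colouring with `d + 1` colours of a set of at most `d + 4` points. -/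
lemma merge3 (d : ℕ) (X : Finset (EuclideanSpace ℝ (Fin d))) (δ : ℝ) (hcard : X.card ≤ d + 4)
    (t1 t2 t3 s1 s2 s3 : EuclideanSpace ℝ (Fin d))
    (ht1 : t1 ∈ X) (ht2 : t2 ∈ X) (ht3 : t3 ∈ X)
    (h12 : t1 ≠ t2) (h13 : t1 ≠ t3) (h23 : t2 ≠ t3)
    (hs1 : s1 ∈ X) (hs2 : s2 ∈ X) (hs3 : s3 ∈ X)
    (n1 : s1 ≠ t1 ∧ s1 ≠ t2 ∧ s1 ≠ t3) (n2 : s2 ≠ t1 ∧ s2 ≠ t2 ∧ s2 ≠ t3)
    (n3 : s3 ≠ t1 ∧ s3 ≠ t2 ∧ s3 ≠ t3)
    (d1 : dist t1 s1 < δ) (d2 : dist t2 s2 < δ) (d3 : dist t3 s3 < δ)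
    (e12 : s1 = s2 → dist t1 t2 < δ) (e13 : s1 = s3 → dist t1 t3 < δ)
    (e23 : s2 = s3 → dist t2 t3 < δ) :
    ∃ f : EuclideanSpace ℝ (Fin d) → Fin (d + 1),
      ∀ p ∈ X, ∀ q ∈ X, p ≠ q → f p = f q → dist p q < δ := by
  classical
  have hTcard : ({t1, t2, t3} : Finset (EuclideanSpace ℝ (Fin d))).card = 3 := by
    rw [card_insert_of_notMem, card_insert_of_notMem, card_singleton]
    · simpa using h23
    · simp only [mem_insert, mem_singleton, not_or]
      exact ⟨h12, h13⟩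
  obtain ⟨s, hsval1, hsval2, hsval3⟩ : ∃ s : EuclideanSpace ℝ (Fin d) → EuclideanSpace ℝ (Fin d),
      s t1 = s1 ∧ s t2 = s2 ∧ s t3 = s3 :=
    ⟨fun t => if t = t1 then s1 else if t = t2 then s2 else s3, by simp, by simp [h12.symm],
      by simp [h13.symm, h23.symm]⟩
  apply coloring_of_merge d X δ {t1, t2, t3} s
  · intro t ht
    simp only [mem_insert, mem_singleton] at ht
    rcases ht with rfl | rfl | rfl <;> assumption
  · rw [hTcard]; omega
  · intro t ht
    simp only [mem_insert, mem_singleton] at ht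
    rcases ht with rfl | rfl | rfl
    · rw [hsval1]
      refine ⟨hs1, ?_, d1⟩
      simp only [mem_insert, mem_singleton, not_or]
      exact n1
    · rw [hsval2]
      refine ⟨hs2, ?_, d2⟩
      simp only [mem_insert, mem_singleton, not_or]
      exact n2
    · rw [hsval3]
      refine ⟨hs3, ?_, d3⟩
      simp only [mem_insert, mem_singleton, not_or]
      exact n3
  · intro t ht t' ht' hne heq
    simp only [mem_insert, mem_singleton] at ht ht'
    rcases ht with rfl | rfl | rfl <;> rcases ht' with rfl | rfl | rfl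
    · exact absurd rfl hne
    · rw [hsval1, hsval2] at heq; exact e12 heq
    · rw [hsval1, hsval3] at heq; exact e13 heq
    · rw [hsval2, hsval1] at heq; rw [dist_comm]; exact e12 heq.symm
    · exact absurd rfl hne
    · rw [hsval2, hsval3] at heq; exact e23 heq
    · rw [hsval3, hsval1] at heq; rw [dist_comm]; exact e13 heq.symm
    · rw [hsval3, hsval2] at heq; rw [dist_comm]; exact e23 heq.symm
    · exact absurd rfl hne

/-- The main case: exactly `d + 4` points. -/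
lemma exists_coloring_of_card_eq (d : ℕ) (X : Finset (EuclideanSpace ℝ (Fin d))) (δ : ℝ)
    (hδ : 0 < δ) (hcard : X.card = d + 4) (h1 : ∀ p ∈ X, ∀ q ∈ X, dist p q ≤ δ) :
    ∃ f : EuclideanSpace ℝ (Fin d) → Fin (d + 1),
      ∀ p ∈ X, ∀ q ∈ X, p ≠ q → f p = f q → dist p q < δ := by
  classical
  -- a first close pair
  obtain ⟨W, hWX, hWcard⟩ := Finset.exists_subset_card_eq (show d + 2 ≤ X.card by omega)
  obtain ⟨a1, ha1W, b1, hb1W, _, _, _, hb1a1, _, hd1, _⟩ :=
    exists_two_close d W hWcard δ hδ (fun p hp q hq => h1 p (hWX hp) q (hWX hq))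
  have ha1 : a1 ∈ X := hWX ha1W
  have hb1 : b1 ∈ X := hWX hb1W
  -- a second close pair, disjoint from the first one
  have hX1card : ((X.erase a1).erase b1).card = d + 2 := by
    rw [card_erase_of_mem (mem_erase.mpr ⟨hb1a1, hb1⟩), card_erase_of_mem ha1, hcard]
    omega
  have hX1sub : (X.erase a1).erase b1 ⊆ X := (erase_subset _ _).trans (erase_subset _ _)
  obtain ⟨a2, ha2X1, b2, hb2X1, _, _, _, hb2a2, _, hd2, _⟩ :=
    exists_two_close d ((X.erase a1).erase b1) hX1card δ hδ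
      (fun p hp q hq => h1 p (hX1sub hp) q (hX1sub hq))
  have ha2 : a2 ∈ X := hX1sub ha2X1
  have hb2 : b2 ∈ X := hX1sub hb2X1
  have ha2b1 : a2 ≠ b1 := (mem_erase.mp ha2X1).1
  have ha2a1 : a2 ≠ a1 := (mem_erase.mp (mem_erase.mp ha2X1).2).1
  have hb2b1 : b2 ≠ b1 := (mem_erase.mp hb2X1).1
  have hb2a1 : b2 ≠ a1 := (mem_erase.mp (mem_erase.mp hb2X1).2).1
  -- the remaining `d` points
  obtain ⟨U, hUdef⟩ : ∃ U : Finset (EuclideanSpace ℝ (Fin d)),
      U = (((X.erase a1).erase b1).erase a2).erase b2 := ⟨_, rfl⟩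
  have hUcard : U.card = d := by
    rw [hUdef, card_erase_of_mem (mem_erase.mpr ⟨hb2a2, hb2X1⟩), card_erase_of_mem ha2X1,
      hX1card]
    omega
  have hUmem : ∀ u, u ∈ U → u ∈ X ∧ u ≠ a1 ∧ u ≠ b1 ∧ u ≠ a2 ∧ u ≠ b2 := by
    intro u hu
    rw [hUdef] at hu
    simp only [mem_erase] at hu
    tauto
  by_cases hA : ∃ u ∈ U, ∃ u' ∈ U, u ≠ u' ∧ dist u u' < δ
  · obtain ⟨u, hu, u', hu', huu', hduu'⟩ := hA
    obtain ⟨huX, hua1, hub1, hua2, hub2⟩ := hUmem u hu
    obtain ⟨hu'X, hu'a1, hu'b1, hu'a2, hu'b2⟩ := hUmem u' hu'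
    exact merge3 d X δ hcard.le b1 b2 u' a1 a2 u hb1 hb2 hu'X hb2b1.symm hu'b1.symm hu'b2.symm
      ha1 ha2 huX ⟨hb1a1.symm, hb2a1.symm, hu'a1.symm⟩ ⟨ha2b1, hb2a2.symm, hu'a2.symm⟩
      ⟨hub1, hub2, huu'⟩ (by rw [dist_comm]; exact hd1) (by rw [dist_comm]; exact hd2)
      (by rw [dist_comm]; exact hduu') (fun h => absurd h ha2a1.symm)
      (fun h => absurd h hua1.symm) (fun h => absurd h hua2.symm)
  by_cases hB1 : (∃ u ∈ U, dist a1 u < δ) ∧ (∃ u' ∈ U, dist b1 u' < δ)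
  · obtain ⟨⟨u, hu, hdu⟩, ⟨u', hu', hdu'⟩⟩ := hB1
    obtain ⟨huX, hua1, hub1, hua2, hub2⟩ := hUmem u hu
    obtain ⟨hu'X, hu'a1, hu'b1, hu'a2, hu'b2⟩ := hUmem u' hu'
    exact merge3 d X δ hcard.le a1 b1 b2 u u' a2 ha1 hb1 hb2 hb1a1.symm hb2a1.symm hb2b1.symm
      huX hu'X ha2 ⟨hua1, hub1, hub2⟩ ⟨hu'a1, hu'b1, hu'b2⟩ ⟨ha2a1, ha2b1, hb2a2.symm⟩
      hdu hdu' (by rw [dist_comm]; exact hd2) (fun _ => hd1)
      (fun h => absurd h hua2) (fun h => absurd h hu'a2)
  by_cases hB2 : (∃ u ∈ U, dist a2 u < δ) ∧ (∃ u' ∈ U, dist b2 u' < δ)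
  · obtain ⟨⟨u, hu, hdu⟩, ⟨u', hu', hdu'⟩⟩ := hB2
    obtain ⟨huX, hua1, hub1, hua2, hub2⟩ := hUmem u hu
    obtain ⟨hu'X, hu'a1, hu'b1, hu'a2, hu'b2⟩ := hUmem u' hu'
    exact merge3 d X δ hcard.le a2 b2 b1 u u' a1 ha2 hb2 hb1 hb2a2.symm ha2b1 hb2b1
      huX hu'X ha1 ⟨hua2, hub2, hub1⟩ ⟨hu'a2, hu'b2, hu'b1⟩ ⟨ha2a1.symm, hb2a1.symm, hb1a1.symm⟩
      hdu hdu' (by rw [dist_comm]; exact hd1) (fun _ => hd2)
      (fun h => absurd h hua1) (fun h => absurd h hu'a1)
  -- remaining case: each pair has an endpoint with no close point in `U`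
  exfalso
  obtain ⟨x1, hx1, hx1U⟩ : ∃ x1, (x1 = a1 ∨ x1 = b1) ∧ ∀ u ∈ U, δ ≤ dist x1 u := by
    by_cases h : ∃ u ∈ U, dist a1 u < δ
    · refine ⟨b1, Or.inr rfl, fun u hu => ?_⟩
      by_contra hlt
      exact hB1 ⟨h, u, hu, not_le.mp hlt⟩
    · refine ⟨a1, Or.inl rfl, fun u hu => ?_⟩
      by_contra hlt
      exact h ⟨u, hu, not_le.mp hlt⟩
  obtain ⟨x2, hx2, hx2U⟩ : ∃ x2, (x2 = a2 ∨ x2 = b2) ∧ ∀ u ∈ U, δ ≤ dist x2 u := by
    by_cases h : ∃ u ∈ U, dist a2 u < δ
    · refine ⟨b2, Or.inr rfl, fun u hu => ?_⟩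
      by_contra hlt
      exact hB2 ⟨h, u, hu, not_le.mp hlt⟩
    · refine ⟨a2, Or.inl rfl, fun u hu => ?_⟩
      by_contra hlt
      exact h ⟨u, hu, not_le.mp hlt⟩
  have hx1X : x1 ∈ X := by rcases hx1 with rfl | rfl <;> assumption
  have hx2X : x2 ∈ X := by rcases hx2 with rfl | rfl <;> assumption
  have hx1U' : x1 ∉ U := by
    intro h
    obtain ⟨_, h1', h2', _, _⟩ := hUmem x1 h
    rcases hx1 with rfl | rfl
    · exact h1' rfl
    · exact h2' rfl
  have hx2U' : x2 ∉ U := by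
    intro h
    obtain ⟨_, _, _, h1', h2'⟩ := hUmem x2 h
    rcases hx2 with rfl | rfl
    · exact h1' rfl
    · exact h2' rfl
  have hx12 : x1 ≠ x2 := by
    rcases hx1 with rfl | rfl <;> rcases hx2 with rfl | rfl
    · exact ha2a1.symm
    · exact hb2a1.symm
    · exact ha2b1.symm
    · exact hb2b1.symm
  have hW'card : (insert x1 (insert x2 U)).card = d + 2 := by
    rw [card_insert_of_notMem, card_insert_of_notMem hx2U', hUcard]
    simp only [mem_insert, not_or]
    exact ⟨hx12, hx1U'⟩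
  have hW'sub : insert x1 (insert x2 U) ⊆ X := by
    intro y hy
    simp only [mem_insert] at hy
    rcases hy with rfl | rfl | hyU
    · exact hx1X
    · exact hx2X
    · exact (hUmem y hyU).1
  obtain ⟨w, hw, p, hp, q, hq, hpq, hpw, hqw, hdp, hdq⟩ :=
    exists_two_close d (insert x1 (insert x2 U)) hW'card δ hδ
      (fun p hp q hq => h1 p (hW'sub hp) q (hW'sub hq))
  have hkey : ∀ y ∈ insert x1 (insert x2 U), ∀ z ∈ insert x1 (insert x2 U), y ≠ z →
      dist y z < δ → (y = x1 ∧ z = x2) ∨ (y = x2 ∧ z = x1) := by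
    intro y hy z hz hyz hd
    simp only [mem_insert] at hy hz
    rcases hy with hy1 | hy2 | hyU <;> rcases hz with hz1 | hz2 | hzU
    · exact absurd (hy1.trans hz1.symm) hyz
    · exact Or.inl ⟨hy1, hz2⟩
    · rw [hy1] at hd
      exact absurd hd (not_lt.mpr (hx1U z hzU))
    · exact Or.inr ⟨hy2, hz1⟩
    · exact absurd (hy2.trans hz2.symm) hyz
    · rw [hy2] at hd
      exact absurd hd (not_lt.mpr (hx2U z hzU))
    · rw [hz1, dist_comm] at hd
      exact absurd hd (not_lt.mpr (hx1U y hyU))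
    · rw [hz2, dist_comm] at hd
      exact absurd hd (not_lt.mpr (hx2U y hyU))
    · exact absurd ⟨y, hyU, z, hzU, hyz, hd⟩ hA
  rcases hkey w hw p hp hpw.symm hdp with ⟨hw1, hp2⟩ | ⟨hw2, hp1⟩
  · rcases hkey w hw q hq hqw.symm hdq with ⟨_, hq2⟩ | ⟨hw2, _⟩
    · exact hpq (hp2.trans hq2.symm)
    · exact hx12 (hw1.symm.trans hw2)
  · rcases hkey w hw q hq hqw.symm hdq with ⟨hw1, _⟩ | ⟨_, hq1⟩
    · exact hx12 (hw1.symm.trans hw2)
    · exact hpq (hp1.trans hq1.symm)

/-- Padding: a finite set with at least two points, all of whose mutual distances are at most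
`δ`, can be enlarged by one new point keeping all mutual distances at most `δ`. -/
lemma exists_pad (d : ℕ) (X : Finset (EuclideanSpace ℝ (Fin d))) (δ : ℝ)
    (h1 : ∀ p ∈ X, ∀ q ∈ X, dist p q ≤ δ) (h2 : 1 < X.card) :
    ∃ y, y ∉ X ∧ ∀ r ∈ X, dist y r ≤ δ := by
  obtain ⟨p, hp, q, hq, hpq⟩ := Finset.one_lt_card.mp h2
  have hinf : (segment ℝ p q).Infinite := by
    rw [segment_eq_image_lineMap]
    exact (Set.Icc_infinite (zero_lt_one' ℝ)).image
      ((AffineMap.lineMap_injective ℝ hpq).injOn)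
  obtain ⟨y, hyseg, hyX⟩ := hinf.exists_notMem_finset X
  refine ⟨y, hyX, fun r hr => ?_⟩
  have hsub : segment ℝ p q ⊆ Metric.closedBall r δ :=
    (convex_closedBall r δ).segment_subset (Metric.mem_closedBall.mpr (h1 p hp r hr))
      (Metric.mem_closedBall.mpr (h1 q hq r hr))
  exact Metric.mem_closedBall.mp (hsub hyseg)

/-- Colouring lemma for at most `d + 4` points (by padding up to exactly `d + 4` points). -/
lemma exists_coloring_aux (d : ℕ) (δ : ℝ) (hδ : 0 < δ) :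
    ∀ (m : ℕ) (X : Finset (EuclideanSpace ℝ (Fin d))), X.card + m = d + 4 →
      (∀ p ∈ X, ∀ q ∈ X, dist p q ≤ δ) →
      ∃ f : EuclideanSpace ℝ (Fin d) → Fin (d + 1),
        ∀ p ∈ X, ∀ q ∈ X, p ≠ q → f p = f q → dist p q < δ := by
  intro m
  induction m with
  | zero =>
    intro X hcard h1
    exact exists_coloring_of_card_eq d X δ hδ (by omega) h1
  | succ m ih =>
    intro X hcard h1
    by_cases h2 : 1 < X.card
    · obtain ⟨y, hyX, hy⟩ := exists_pad d X δ h1 h2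
      have hcard' : (insert y X).card + m = d + 4 := by
        rw [card_insert_of_notMem hyX]
        omega
      have h1' : ∀ p ∈ insert y X, ∀ q ∈ insert y X, dist p q ≤ δ := by
        intro p hp q hq
        simp only [mem_insert] at hp hq
        rcases hp with rfl | hp <;> rcases hq with rfl | hq
        · simp [hδ.le]
        · exact hy q hq
        · rw [dist_comm]; exact hy p hp
        · exact h1 p hp q hq
      obtain ⟨f, hf⟩ := ih (insert y X) hcard' h1'
      exact ⟨f, fun p hp q hq => hf p (mem_insert_of_mem hp) q (mem_insert_of_mem hq)⟩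
    · refine ⟨fun _ => 0, fun p hp q hq hpq _ => ?_⟩
      exact absurd (Finset.card_le_one.mp (not_lt.mp h2) p hp q hq) hpq

/-- Colouring lemma for at most `d + 4` points. -/
lemma exists_coloring (d : ℕ) (X : Finset (EuclideanSpace ℝ (Fin d))) (δ : ℝ) (hδ : 0 < δ)
    (hcard : X.card ≤ d + 4) (h1 : ∀ p ∈ X, ∀ q ∈ X, dist p q ≤ δ) :
    ∃ f : EuclideanSpace ℝ (Fin d) → Fin (d + 1),
      ∀ p ∈ X, ∀ q ∈ X, p ≠ q → f p = f q → dist p q < δ :=
  exists_coloring_aux d δ hδ (d + 4 - X.card) X (by omega) h1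

end Vale.Agent.Lib.P052
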