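import Mathlib

/-!
# A diagonal-dominance criterion for affine independence (used for P052)
-/

open Finset

namespace Vale.Agent.Lib.P052

/-- Diagonal-dominance criterion for affine independence: if all mutual distances are at most
`δ` and, for each `i`, the sum over `j ≠ i` of `δ^2 - dist (x i) (x j)^2` is less than `δ^2`,
then the points are affinely independent. -/
lemma affineIndependent_of_gap_sum_lt {ι : Type*} [Fintype ι] [DecidableEq ι]
    {E : Type*} [NormedAddCommGroup E] [InnerProductSpace ℝ E]
    (x : ι → E) (δ : ℝ)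
    (hle : ∀ i j, dist (x i) (x j) ≤ δ)
    (hrow : ∀ i, ∑ j, (if j = i then 0 else δ^2 - dist (x i) (x j)^2) < δ^2) :
    AffineIndependent ℝ x := by
  rw [affineIndependent_iff_of_fintype]
  intro w hw hs
  rw [Finset.weightedVSub_eq_weightedVSubOfPoint_of_sum_eq_zero _ w x hw (0 : E),
    Finset.weightedVSubOfPoint_apply] at hs
  simp only [vsub_eq_sub, sub_zero] at hs
  -- the squared-distance form vanishes
  have key : ∀ i j, inner ℝ (x i) (x j) = (‖x i‖^2 + ‖x j‖^2 - dist (x i) (x j)^2)/2 := by
    intro i j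
    rw [dist_eq_norm, real_inner_eq_norm_mul_self_add_norm_mul_self_sub_norm_sub_mul_self_div_two]
    ring
  have hnorm : inner ℝ (∑ i, w i • x i) (∑ j, w j • x j)
      = ∑ i, ∑ j, w i * w j * inner ℝ (x i) (x j) := by
    rw [sum_inner]
    apply sum_congr rfl
    intro i _
    rw [inner_sum]
    apply sum_congr rfl
    intro j _
    rw [real_inner_smul_left, real_inner_smul_right]
    ring
  rw [hs, inner_zero_left] at hnorm
  have e1 : ∑ i, ∑ j, w i * w j * ‖x i‖^2 = 0 := by
    have : ∀ i, ∑ j, w i * w j * ‖x i‖^2 = (w i * ‖x i‖^2) * ∑ j, w j := by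
      intro i
      rw [mul_sum]
      apply sum_congr rfl
      intro j _
      ring
    simp_rw [this, hw]
    simp
  have e2 : ∑ i, ∑ j, w i * w j * ‖x j‖^2 = 0 := by
    rw [sum_comm]
    have : ∀ j, ∑ i, w i * w j * ‖x j‖^2 = (w j * ‖x j‖^2) * ∑ i, w i := by
      intro j
      rw [mul_sum]
      apply sum_congr rfl
      intro i _
      ring
    simp_rw [this, hw]
    simp
  have h0 : ∑ i, ∑ j, w i * w j * dist (x i) (x j)^2 = 0 := by
    have : ∑ i, ∑ j, w i * w j * inner ℝ (x i) (x j)
        = ((∑ i, ∑ j, w i * w j * ‖x i‖^2) + (∑ i, ∑ j, w i * w j * ‖x j‖^2)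
            - ∑ i, ∑ j, w i * w j * dist (x i) (x j)^2) / 2 := by
      rw [← sum_add_distrib, ← sum_sub_distrib, sum_div]
      apply sum_congr rfl
      intro i _
      rw [← sum_add_distrib, ← sum_sub_distrib, sum_div]
      apply sum_congr rfl
      intro j _
      rw [key]
      ring
    rw [← hnorm, e1, e2] at this
    linarith
  -- the gap matrix
  set g : ι → ι → ℝ := fun i j => if j = i then 0 else δ^2 - dist (x i) (x j)^2 with hg
  have hg_nonneg : ∀ i j, 0 ≤ g i j := by
    intro i j
    simp only [hg]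
    split_ifs
    · exact le_rfl
    · have := pow_le_pow_left₀ dist_nonneg (hle i j) 2
      linarith
  have hg_symm : ∀ i j, g i j = g j i := by
    intro i j
    simp only [hg]
    by_cases h : j = i
    · subst h; simp
    · have h' : ¬ i = j := fun e => h e.symm
      rw [if_neg h, if_neg h', dist_comm]
  have hD : ∀ i j, dist (x i) (x j)^2 = (if j = i then 0 else δ^2) - g i j := by
    intro i j
    simp only [hg]
    by_cases h : j = i
    · subst h; simp
    · rw [if_neg h, if_neg h]; ring
  have h1 : ∑ i, ∑ j, w i * w j * (if j = i then 0 else δ^2) = - δ^2 * ∑ i, w i^2 := by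
    have : ∀ i, ∑ j, w i * w j * (if j = i then 0 else δ^2)
        = δ^2 * w i * ∑ j, w j - δ^2 * w i^2 := by
      intro i
      have hterm : ∀ j, w i * w j * (if j = i then 0 else δ^2)
          = δ^2 * w i * w j - (if j = i then δ^2 * w i * w j else 0) := by
        intro j
        split_ifs <;> ring
      simp_rw [hterm, sum_sub_distrib, ← mul_sum, sum_ite_eq', mem_univ, if_true]
      ring
    simp_rw [this, hw, sum_sub_distrib, ← mul_sum]
    simp
  have h2 : δ^2 * ∑ i, w i^2 = - ∑ i, ∑ j, w i * w j * g i j := by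
    have : ∑ i, ∑ j, w i * w j * dist (x i) (x j)^2
        = ∑ i, ∑ j, w i * w j * (if j = i then 0 else δ^2) - ∑ i, ∑ j, w i * w j * g i j := by
      rw [← sum_sub_distrib]
      apply sum_congr rfl
      intro i _
      rw [← sum_sub_distrib]
      apply sum_congr rfl
      intro j _
      rw [hD i j]
      ring
    rw [h0, h1] at this
    linarith
  have h3 : - ∑ i, ∑ j, w i * w j * g i j ≤ ∑ i, ∑ j, g i j * (w i^2 + w j^2)/2 := by
    rw [← sum_neg_distrib]
    apply sum_le_sum
    intro i _
    rw [← sum_neg_distrib]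
    apply sum_le_sum
    intro j _
    nlinarith [mul_nonneg (hg_nonneg i j) (sq_nonneg (w i + w j))]
  have h4 : ∑ i, ∑ j, g i j * (w i^2 + w j^2)/2 = ∑ i, w i^2 * ∑ j, g i j := by
    have a : ∑ i, ∑ j, g i j * (w i^2 + w j^2)/2
        = (∑ i, ∑ j, g i j * w i^2)/2 + (∑ i, ∑ j, g i j * w j^2)/2 := by
      rw [← add_div, ← sum_add_distrib, sum_div]
      apply sum_congr rfl
      intro i _
      rw [← sum_add_distrib, sum_div]
      apply sum_congr rfl
      intro j _
      ring
    have b : ∑ i, ∑ j, g i j * w j^2 = ∑ i, ∑ j, g i j * w i^2 := by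
      rw [sum_comm]
      apply sum_congr rfl
      intro i _
      apply sum_congr rfl
      intro j _
      rw [hg_symm]
    have c : ∑ i, ∑ j, g i j * w i^2 = ∑ i, w i^2 * ∑ j, g i j := by
      apply sum_congr rfl
      intro i _
      rw [mul_sum]
      apply sum_congr rfl
      intro j _
      ring
    rw [a, b, c]
    ring
  have hsum : ∑ i, w i^2 * (δ^2 - ∑ j, g i j) ≤ 0 := by
    have : ∑ i, w i^2 * (δ^2 - ∑ j, g i j) = δ^2 * ∑ i, w i^2 - ∑ i, w i^2 * ∑ j, g i j := by
      rw [mul_sum, ← sum_sub_distrib]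
      apply sum_congr rfl
      intro i _
      ring
    rw [this, h2, ← h4]
    linarith
  have hterm_nonneg : ∀ i ∈ (univ : Finset ι), 0 ≤ w i^2 * (δ^2 - ∑ j, g i j) := by
    intro i _
    exact mul_nonneg (sq_nonneg _) (by have := hrow i; linarith)
  have hzero := (sum_eq_zero_iff_of_nonneg hterm_nonneg).mp
    (le_antisymm hsum (sum_nonneg hterm_nonneg))
  intro i
  have hi := hzero i (mem_univ i)
  have hpos : 0 < δ^2 - ∑ j, g i j := by have := hrow i; linarith
  have : w i^2 = 0 := by
    rcases mul_eq_zero.mp hi with h | h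
    · exact h
    · exact absurd h hpos.ne'
  exact pow_eq_zero_iff (by norm_num) |>.mp this

end Vale.Agent.Lib.P052
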